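import Vale.Agent.P198.SQ.Disc

/-!
# P198 block SQ (4): length-area integration, square rings are linked
-/

open scoped Classical ENNReal
open MeasureTheory Set

namespace P198S

/-- Fubini for weights: if almost every parameter `u` in `(u₁,u₂)` is charged at least `1`, then
`u₂ - u₁ ≤ ∑ τ ρ`. -/
theorem integral_count {C : Type*} (G : Finset C) (τ ρ : C → ℝ) (hτ : ∀ c, 0 ≤ τ c)
    (hρ : ∀ c, 0 ≤ ρ c) (I : C → Set ℝ) (hI : ∀ c, MeasurableSet (I c))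
    (hlen : ∀ c, volume (I c) ≤ ENNReal.ofReal (ρ c)) (u₁ u₂ : ℝ)
    (h : ∀ᵐ u : ℝ, u ∈ Ioo u₁ u₂ → 1 ≤ ∑ c ∈ G with u ∈ I c, τ c) :
    u₂ - u₁ ≤ ∑ c ∈ G, τ c * ρ c := by
  have hnn : 0 ≤ ∑ c ∈ G, τ c * ρ c := Finset.sum_nonneg fun c _ => mul_nonneg (hτ c) (hρ c)
  rw [← ENNReal.ofReal_le_ofReal_iff hnn]
  calc ENNReal.ofReal (u₂ - u₁) = volume (Ioo u₁ u₂) := by rw [Real.volume_Ioo]
    _ = ∫⁻ _u in Ioo u₁ u₂, 1 := by simp
    _ ≤ ∫⁻ u in Ioo u₁ u₂, ∑ c ∈ G, (I c).indicator (fun _ => ENNReal.ofReal (τ c)) u := by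
        refine lintegral_mono_ae ?_
        refine (ae_restrict_iff' measurableSet_Ioo).2 ?_
        filter_upwards [h] with u hu hmem
        have h1 := hu hmem
        calc (1 : ℝ≥0∞) = ENNReal.ofReal 1 := by simp
          _ ≤ ENNReal.ofReal (∑ c ∈ G with u ∈ I c, τ c) := ENNReal.ofReal_le_ofReal h1
          _ = ∑ c ∈ G with u ∈ I c, ENNReal.ofReal (τ c) :=
              ENNReal.ofReal_sum_of_nonneg fun c _ => hτ c
          _ = ∑ c ∈ G, (I c).indicator (fun _ => ENNReal.ofReal (τ c)) u := by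
              rw [Finset.sum_filter]
              refine Finset.sum_congr rfl fun c _ => ?_
              by_cases hc : u ∈ I c
              · simp [hc]
              · simp [hc]
    _ ≤ ∫⁻ u, ∑ c ∈ G, (I c).indicator (fun _ => ENNReal.ofReal (τ c)) u :=
        setLIntegral_le_lintegral _ _
    _ = ∑ c ∈ G, ENNReal.ofReal (τ c) * volume (I c) := by
        rw [lintegral_finsetSum]
        · refine Finset.sum_congr rfl fun c _ => ?_
          rw [lintegral_indicator (hI c)]; simp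
        · intro c _
          exact measurable_const.indicator (hI c)
    _ ≤ ∑ c ∈ G, ENNReal.ofReal (τ c) * ENNReal.ofReal (ρ c) :=
        Finset.sum_le_sum fun c _ => mul_le_mul_right (hlen c) _
    _ = ENNReal.ofReal (∑ c ∈ G, τ c * ρ c) := by
        rw [ENNReal.ofReal_sum_of_nonneg fun c _ => mul_nonneg (hτ c) (hρ c)]
        refine Finset.sum_congr rfl fun c _ => ?_
        rw [ENNReal.ofReal_mul (hτ c)]

/-- length-area inequality (Cauchy-Schwarz form). -/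
theorem length_area {C : Type*} (G : Finset C) (τ ρ : C → ℝ) (hτ : ∀ c, 0 ≤ τ c)
    (hρ : ∀ c, 0 ≤ ρ c) (I : C → Set ℝ) (hI : ∀ c, MeasurableSet (I c))
    (hlen : ∀ c, volume (I c) ≤ ENNReal.ofReal (ρ c)) (u₁ u₂ : ℝ) (hu : u₁ ≤ u₂)
    (h : ∀ᵐ u : ℝ, u ∈ Ioo u₁ u₂ → 1 ≤ ∑ c ∈ G with u ∈ I c, τ c) :
    (u₂ - u₁) ^ 2 ≤ (∑ c ∈ G, τ c ^ 2) * ∑ c ∈ G, ρ c ^ 2 := by
  have h1 := integral_count G τ ρ hτ hρ I hI hlen u₁ u₂ h
  have h2 := Finset.sum_mul_sq_le_sq_mul_sq G τ ρ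
  have h3 : 0 ≤ u₂ - u₁ := by linarith
  nlinarith

variable {C : Type*} [Fintype C] {H : HexRect C} {W h : ℝ} {ρ x y : C → ℝ}

/-- the set of radii `u` for which the square of `c` meets the sup-norm sphere of radius `u` -/
def radii (ρ x y : C → ℝ) (p : ℝ × ℝ) (c : C) : Set ℝ := (fun z => dist z p) '' sq ρ x y c

omit [Fintype C] in
theorem measurableSet_radii (p : ℝ × ℝ) (c : C) : MeasurableSet (radii ρ x y p c) := by
  have h1 : IsCompact (sq ρ x y c) := isCompact_Icc.prod isCompact_Icc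
  exact (h1.image (by fun_prop)).isClosed.measurableSet

omit [Fintype C] in
theorem dist_le_of_mem_sq {c : C} {z w : ℝ × ℝ} (hz : z ∈ sq ρ x y c) (hw : w ∈ sq ρ x y c) :
    dist z w ≤ ρ c := by
  rw [mem_sq] at hz hw
  rw [Prod.dist_eq]
  apply max_le
  · rw [Real.dist_eq, abs_le]; constructor <;> linarith [hz.1.1, hz.1.2, hw.1.1, hw.1.2]
  · rw [Real.dist_eq, abs_le]; constructor <;> linarith [hz.2.1, hz.2.2, hw.2.1, hw.2.2]

omit [Fintype C] in
theorem volume_radii_le (p : ℝ × ℝ) (c : C) : volume (radii ρ x y p c) ≤ ENNReal.ofReal (ρ c) := by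
  refine (Real.volume_le_diam _).trans ?_
  apply Metric.ediam_le
  rintro _ ⟨z, hz, rfl⟩ _ ⟨w, hw, rfl⟩
  rw [edist_dist]
  apply ENNReal.ofReal_le_ofReal
  refine le_trans ?_ (dist_le_of_mem_sq hz hw)
  rw [Real.dist_eq]
  exact abs_dist_sub_le z w p

omit [Fintype C] in
theorem mem_radii {p : ℝ × ℝ} {c : C} {u : ℝ} :
    u ∈ radii ρ x y p c ↔ c ∈ meet ρ x y (Metric.sphere p u) := by
  constructor
  · rintro ⟨z, hz, hzu⟩
    exact ⟨z, hz, hzu⟩
  · rintro ⟨z, hz, hzu⟩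
    exact ⟨z, hz, hzu⟩

namespace Tiling

/-- almost every `b` is generic -/
theorem ae_gen (ρ x : C → ℝ) : ∀ᵐ b : ℝ, Gen ρ x b := by
  have h1 : ∀ c : C, ∀ᵐ b : ℝ, b ≠ x c ∧ b ≠ x c + ρ c := by
    intro c
    have h2 : ∀ᵐ b : ℝ, b ≠ x c := by
      rw [ae_iff]; simp
    have h3 : ∀ᵐ b : ℝ, b ≠ x c + ρ c := by
      rw [ae_iff]; simp
    filter_upwards [h2, h3] with b h4 h5 using ⟨h4, h5⟩
  exact ae_all_iff.2 h1

/-- almost every radius gives a generic square -/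
theorem ae_gen_add (ρ x : C → ℝ) (p : ℝ) : ∀ᵐ u : ℝ, Gen ρ x (p + u) := by
  have h1 : ∀ c : C, ∀ᵐ u : ℝ, p + u ≠ x c ∧ p + u ≠ x c + ρ c := by
    intro c
    have h2 : ∀ᵐ u : ℝ, u ≠ x c - p := by
      rw [ae_iff]; simp
    have h3 : ∀ᵐ u : ℝ, u ≠ x c + ρ c - p := by
      rw [ae_iff]; simp
    filter_upwards [h2, h3] with b h4 h5
    exact ⟨fun h => h4 (by linarith), fun h => h5 (by linarith)⟩
  exact ae_all_iff.2 h1

theorem ae_gen_sub (ρ x : C → ℝ) (p : ℝ) : ∀ᵐ u : ℝ, Gen ρ x (p - u) := by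
  have h1 : ∀ c : C, ∀ᵐ u : ℝ, p - u ≠ x c ∧ p - u ≠ x c + ρ c := by
    intro c
    have h2 : ∀ᵐ u : ℝ, u ≠ p - x c := by
      rw [ae_iff]; simp
    have h3 : ∀ᵐ u : ℝ, u ≠ p - (x c + ρ c) := by
      rw [ae_iff]; simp
    filter_upwards [h2, h3] with b h4 h5
    exact ⟨fun h => h4 (by linarith), fun h => h5 (by linarith)⟩
  exact ae_all_iff.2 h1

omit [Fintype C] in
/-- a generic closed interval meeting a closed cell interval meets its interior -/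
theorem exists_inner {u r a b s : ℝ} (hr : 0 < r) (hab : a < b) (h1 : u ≤ s) (h2 : s ≤ u + r)
    (h3 : a ≤ s) (h4 : s ≤ b) (ha : a ≠ u + r) (hb : b ≠ u) :
    ∃ e, u < e ∧ e < u + r ∧ a ≤ e ∧ e ≤ b := by
  have hau : a < u + r := lt_of_le_of_ne (h3.trans h2) ha
  have hub : u < b := lt_of_le_of_ne (h1.trans h4) (Ne.symm hb)
  have hlt : max u a < min (u + r) b := max_lt (lt_min (by linarith) hub) (lt_min hau hab)
  obtain ⟨e, he1, he2⟩ := exists_between hlt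
  rw [max_lt_iff] at he1
  rw [lt_min_iff] at he2
  exact ⟨e, he1.1, he2.1, he1.2.le, he2.2.le⟩

/-- all the cells meeting a generic vertical side of an admissible set `D` are linked to a corner. -/
theorem side_link (t : Tiling H W h ρ x y) {b a₁ a₂ : ℝ} (h0 : 0 < b) (h1 : b < W) (hb : Gen ρ x b)
    (ha₁ : Gen ρ y a₁) (ha₂ : Gen ρ y a₂) (h12 : a₁ < a₂)
    {D : Set (ℝ × ℝ)} (hD : ∀ s, a₁ ≤ s → s ≤ a₂ → (b, s) ∈ D)
    {e : C} {a : ℝ} (ha : a₁ ≤ a ∧ a ≤ a₂) (he : (b, a) ∈ osq ρ x y e)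
    {c : C} {s : ℝ} (hs : a₁ ≤ s ∧ s ≤ a₂) (hc : (b, s) ∈ sq ρ x y c) :
    Link H (meet ρ x y D) c e := by
  rw [mem_sq] at hc
  rw [mem_osq] at he
  have hcV : c ∈ V ρ x b :=
    ⟨lt_of_le_of_ne hc.1.1 (Ne.symm (hb c).1), lt_of_le_of_ne hc.1.2 (hb c).2⟩
  obtain ⟨s', h2, h3, h4, h5⟩ := exists_inner (V_pos hcV) h12 hc.2.1 hc.2.2 hs.1 hs.2
    (ha₁ c).2 (ha₂ c).1
  refine t.vseg' h0 h1 hb hcV he.1 ⟨h2, h3⟩ he.2 ?_
  intro s'' h6 h7
  exact hD _ ((le_min h4 ha.1).trans h6) (h7.trans (max_le h5 ha.2))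

theorem side_link' (t : Tiling H W h ρ x y) {b a₁ a₂ : ℝ} (h0 : 0 < b) (h1 : b < h) (hb : Gen ρ y b)
    (ha₁ : Gen ρ x a₁) (ha₂ : Gen ρ x a₂) (h12 : a₁ < a₂)
    {D : Set (ℝ × ℝ)} (hD : ∀ s, a₁ ≤ s → s ≤ a₂ → (s, b) ∈ D)
    {e : C} {a : ℝ} (ha : a₁ ≤ a ∧ a ≤ a₂) (he : (a, b) ∈ osq ρ x y e)
    {c : C} {s : ℝ} (hs : a₁ ≤ s ∧ s ≤ a₂) (hc : (s, b) ∈ sq ρ x y c) :
    Link H (meet ρ x y D) c e := by
  rw [mem_sq] at hc
  rw [mem_osq] at he
  have hcV : c ∈ V ρ y b :=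
    ⟨lt_of_le_of_ne hc.2.1 (Ne.symm (hb c).1), lt_of_le_of_ne hc.2.2 (hb c).2⟩
  obtain ⟨s', h2, h3, h4, h5⟩ := exists_inner (V_pos hcV) h12 hc.1.1 hc.1.2 hs.1 hs.2
    (ha₁ c).2 (ha₂ c).1
  refine t.hseg' h0 h1 hb hcV he.2 ⟨h2, h3⟩ he.1 ?_
  intro s'' h6 h7
  exact hD _ ((le_min h4 ha.1).trans h6) (h7.trans (max_le h5 ha.2))

/-- the cell at a generic point -/
theorem exists_corner (t : Tiling H W h ρ x y) {a b : ℝ} (h0 : 0 < a) (h1 : a < W) (h2 : 0 < b)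
    (h3 : b < h) (ha : Gen ρ x a) (hb : Gen ρ y b) : ∃ e, (a, b) ∈ osq ρ x y e := by
  obtain ⟨e, he⟩ := t.cover a b h0.le h1.le h2.le h3.le
  rw [mem_sq] at he
  refine ⟨e, ?_⟩
  rw [mem_osq]
  exact ⟨⟨lt_of_le_of_ne he.1.1 (Ne.symm (ha e).1), lt_of_le_of_ne he.1.2 (ha e).2⟩,
    ⟨lt_of_le_of_ne he.2.1 (Ne.symm (hb e).1), lt_of_le_of_ne he.2.2 (hb e).2⟩⟩

/-- **Square rings are linked**: for a generic square `Sq(p,u)` inside the open rectangle, any two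
cells whose closed squares meet its boundary are linked through such cells. -/
theorem ring_link (t : Tiling H W h ρ x y) {p : ℝ × ℝ} {u : ℝ} (hu : 0 < u)
    (hx0 : 0 < p.1 - u) (hx1 : p.1 + u < W) (hy0 : 0 < p.2 - u) (hy1 : p.2 + u < h)
    (g1 : Gen ρ x (p.1 - u)) (g2 : Gen ρ x (p.1 + u)) (g3 : Gen ρ y (p.2 - u))
    (g4 : Gen ρ y (p.2 + u)) (c d : C) (hc : c ∈ meet ρ x y (Metric.sphere p u))
    (hd : d ∈ meet ρ x y (Metric.sphere p u)) :
    Link H (meet ρ x y (Metric.sphere p u)) c d := by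
  -- the four sides belong to the sphere
  have hL : ∀ s, p.2 - u ≤ s → s ≤ p.2 + u → (p.1 - u, s) ∈ Metric.sphere p u := by
    intro s h1 h2
    rw [Metric.mem_sphere, Prod.dist_eq]
    simp only [Real.dist_eq]
    rw [show p.1 - u - p.1 = -u by ring, abs_neg, abs_of_pos hu]
    exact max_eq_left (abs_le.2 ⟨by linarith, by linarith⟩)
  have hR : ∀ s, p.2 - u ≤ s → s ≤ p.2 + u → (p.1 + u, s) ∈ Metric.sphere p u := by
    intro s h1 h2
    rw [Metric.mem_sphere, Prod.dist_eq]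
    simp only [Real.dist_eq]
    rw [show p.1 + u - p.1 = u by ring, abs_of_pos hu]
    exact max_eq_left (abs_le.2 ⟨by linarith, by linarith⟩)
  have hB : ∀ s, p.1 - u ≤ s → s ≤ p.1 + u → (s, p.2 - u) ∈ Metric.sphere p u := by
    intro s h1 h2
    rw [Metric.mem_sphere, Prod.dist_eq]
    simp only [Real.dist_eq]
    rw [show p.2 - u - p.2 = -u by ring, abs_neg, abs_of_pos hu]
    exact max_eq_right (abs_le.2 ⟨by linarith, by linarith⟩)
  have hT : ∀ s, p.1 - u ≤ s → s ≤ p.1 + u → (s, p.2 + u) ∈ Metric.sphere p u := by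
    intro s h1 h2
    rw [Metric.mem_sphere, Prod.dist_eq]
    simp only [Real.dist_eq]
    rw [show p.2 + u - p.2 = u by ring, abs_of_pos hu]
    exact max_eq_right (abs_le.2 ⟨by linarith, by linarith⟩)
  -- corners
  obtain ⟨e1, he1⟩ := t.exists_corner hx0 (by linarith) hy0 (by linarith) g1 g3
  obtain ⟨e2, he2⟩ := t.exists_corner hx0 (by linarith) (by linarith) hy1 g1 g4
  obtain ⟨e3, he3⟩ := t.exists_corner (by linarith) hx1 hy0 (by linarith) g2 g3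
  have hpu : p.2 - u < p.2 + u := by linarith
  have hpu' : p.1 - u < p.1 + u := by linarith
  have l21 : Link H (meet ρ x y (Metric.sphere p u)) e2 e1 :=
    t.side_link hx0 (by linarith) g1 g3 g4 hpu hL (a := p.2 - u) ⟨le_rfl, hpu.le⟩ he1
      (s := p.2 + u) ⟨hpu.le, le_rfl⟩ (osq_subset_sq e2 he2)
  have l31 : Link H (meet ρ x y (Metric.sphere p u)) e3 e1 :=
    t.side_link' hy0 (by linarith) g3 g1 g2 hpu' hB (a := p.1 - u) ⟨le_rfl, hpu'.le⟩ he1
      (s := p.1 + u) ⟨hpu'.le, le_rfl⟩ (osq_subset_sq e3 he3)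
  have key : ∀ c ∈ meet ρ x y (Metric.sphere p u), Link H (meet ρ x y (Metric.sphere p u)) c e1 := by
    rintro c ⟨z, hz, hzu⟩
    rw [Metric.mem_sphere, Prod.dist_eq] at hzu
    simp only [Real.dist_eq] at hzu
    have hz1 : |z.1 - p.1| ≤ u := (le_max_left _ _).trans hzu.le
    have hz2 : |z.2 - p.2| ≤ u := (le_max_right _ _).trans hzu.le
    rw [abs_le] at hz1 hz2
    rcases max_choice |z.1 - p.1| |z.2 - p.2| with hm | hm
    · rw [hm] at hzu
      rcases abs_choice (z.1 - p.1) with ha | ha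
      · -- right side
        rw [ha] at hzu
        have hzeq : z = (p.1 + u, z.2) := Prod.ext (by simp; linarith) rfl
        rw [hzeq] at hz
        exact (t.side_link (by linarith) hx1 g2 g3 g4 hpu hR (a := p.2 - u) ⟨le_rfl, hpu.le⟩ he3
          (s := z.2) ⟨by linarith, by linarith⟩ hz).trans l31
      · rw [ha] at hzu
        have hzeq : z = (p.1 - u, z.2) := Prod.ext (by simp; linarith) rfl
        rw [hzeq] at hz
        exact t.side_link hx0 (by linarith) g1 g3 g4 hpu hL (a := p.2 - u) ⟨le_rfl, hpu.le⟩ he1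
          (s := z.2) ⟨by linarith, by linarith⟩ hz
    · rw [hm] at hzu
      rcases abs_choice (z.2 - p.2) with ha | ha
      · rw [ha] at hzu
        have hzeq : z = (z.1, p.2 + u) := Prod.ext rfl (by simp; linarith)
        rw [hzeq] at hz
        exact (t.side_link' (by linarith) hy1 g4 g1 g2 hpu' hT (a := p.1 - u) ⟨le_rfl, hpu'.le⟩ he2
          (s := z.1) ⟨by linarith, by linarith⟩ hz).trans l21
      · rw [ha] at hzu
        have hzeq : z = (z.1, p.2 - u) := Prod.ext rfl (by simp; linarith)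
        rw [hzeq] at hz
        exact t.side_link' hy0 (by linarith) g3 g1 g2 hpu' hB (a := p.1 - u) ⟨le_rfl, hpu'.le⟩ he1
          (s := z.1) ⟨by linarith, by linarith⟩ hz
  exact (key c hc).trans (key d hd).symm

/-- the cell containing a prescribed point meets every sphere through it; rings are nonempty. -/
theorem ring_nonempty (t : Tiling H W h ρ x y) {p : ℝ × ℝ} {u : ℝ} (hu : 0 < u)
    (hx0 : 0 ≤ p.1 - u) (hx1 : p.1 ≤ W) (hy0 : 0 ≤ p.2) (hy1 : p.2 ≤ h) :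
    ∃ c, c ∈ meet ρ x y (Metric.sphere p u) := by
  obtain ⟨c, hc⟩ := t.cover (p.1 - u) p.2 hx0 (by linarith) hy0 hy1
  refine ⟨c, (p.1 - u, p.2), hc, ?_⟩
  rw [Metric.mem_sphere, Prod.dist_eq]
  simp only [Real.dist_eq]
  rw [show p.1 - u - p.1 = -u by ring, abs_neg, abs_of_pos hu, sub_self, abs_zero]
  exact max_eq_left hu.le

end Tiling

end P198S
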