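import Vale.Agent.P198.SQ.Tile

/-!
# P198 block SQ (3): discs have connected preimages, local area bound
-/

open scoped Classical ENNReal
open MeasureTheory Set

namespace P198S

theorem rtg_symm {α : Type*} {r : α → α → Prop} (h : ∀ a b, r a b → r b a) {a b : α}
    (hr : Relation.ReflTransGen r a b) : Relation.ReflTransGen r b a := by
  induction hr with
  | refl => exact .refl
  | tail _ h1 ih => exact ih.head (h _ _ h1)

variable {C : Type*} [Fintype C] {H : HexRect C} {W h : ℝ} {ρ x y : C → ℝ}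

/-- cells whose closed square meets `D` -/
def meet (ρ x y : C → ℝ) (D : Set (ℝ × ℝ)) : Set C := {c | (sq ρ x y c ∩ D).Nonempty}

/-- chains inside a set of cells -/
def Link (H : HexRect C) (M : Set C) (c d : C) : Prop :=
  Relation.ReflTransGen (fun u v => H.adj u v ∧ u ∈ M ∧ v ∈ M) c d

omit [Fintype C] in
theorem Link.symm {M : Set C} {c d : C} (h : Link H M c d) : Link H M d c :=
  rtg_symm (fun a b hab => ⟨H.symm a b hab.1, hab.2.2, hab.2.1⟩) h

omit [Fintype C] in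
theorem Link.trans {M : Set C} {c d e : C} (h : Link H M c d) (h' : Link H M d e) : Link H M c e :=
  Relation.ReflTransGen.trans h h'

/-- a generic point in an open interval -/
theorem exists_gen (ρ x : C → ℝ) {a b : ℝ} (hab : a < b) : ∃ e, a < e ∧ e < b ∧ Tiling.Gen ρ x e := by
  have hfin : ((Finset.univ.image x ∪ Finset.univ.image (fun c => x c + ρ c) : Finset ℝ) : Set ℝ).Finite :=
    Finset.finite_toSet _
  obtain ⟨e, he, hne⟩ := (Ioo_infinite hab).exists_notMem_finset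
    (Finset.univ.image x ∪ Finset.univ.image (fun c => x c + ρ c))
  refine ⟨e, he.1, he.2, fun c => ⟨?_, ?_⟩⟩
  · rintro rfl; apply hne; simp
  · rintro rfl; apply hne
    rw [Finset.mem_union]; right
    exact Finset.mem_image.2 ⟨c, Finset.mem_univ _, rfl⟩

namespace Tiling

/-- a vertical segment inside an open rectangle gives a chain of cells meeting the rectangle -/
theorem vseg (t : Tiling H W h ρ x y) {b : ℝ} (h0 : 0 < b) (h1 : b < W) (hb : Gen ρ x b)
    {D : Set (ℝ × ℝ)} {c e : C} (hc : c ∈ V ρ x b) (he : e ∈ V ρ x b) {a a' : ℝ}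
    (hac : y c < a ∧ a < y c + ρ c) (hae : y e < a' ∧ a' < y e + ρ e)
    (hD : ∀ s, min a a' ≤ s → s ≤ max a a' → (b, s) ∈ D) (hle : y c ≤ y e) :
    Link H (meet ρ x y D) c e := by
  have hmem : ∀ u, (u ∈ V ρ x b ∧ y c ≤ y u ∧ y u ≤ y e) → u ∈ meet ρ x y D := by
    rintro u ⟨hu, hcu, hue⟩
    rcases hcu.lt_or_eq with h2 | h2
    · rcases hue.lt_or_eq with h3 | h3
      · have h4 := t.V_lt hc hu h2
        have h5 := V_pos hu
        refine ⟨(b, y u), ⟨⟨hu.1.le, hu.2.le⟩, ⟨le_rfl, by linarith⟩⟩, hD _ ?_ ?_⟩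
        · exact (min_le_left _ _).trans (by linarith)
        · exact (by linarith : y u ≤ a').trans (le_max_right _ _)
      · have := t.V_inj hu he h3
        subst this
        exact ⟨(b, a'), ⟨⟨hu.1.le, hu.2.le⟩, ⟨hae.1.le, hae.2.le⟩⟩, hD _ (min_le_right _ _) (le_max_right _ _)⟩
    · have := t.V_inj hc hu h2
      subst this
      exact ⟨(b, a), ⟨⟨hu.1.le, hu.2.le⟩, ⟨hac.1.le, hac.2.le⟩⟩, hD _ (min_le_left _ _) (le_max_left _ _)⟩
  exact rtg_mono (fun u v huv => ⟨huv.1, hmem u huv.2.1, hmem v huv.2.2⟩) (t.vline h0 h1 hb hc he hle)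

theorem vseg' (t : Tiling H W h ρ x y) {b : ℝ} (h0 : 0 < b) (h1 : b < W) (hb : Gen ρ x b)
    {D : Set (ℝ × ℝ)} {c e : C} (hc : c ∈ V ρ x b) (he : e ∈ V ρ x b) {a a' : ℝ}
    (hac : y c < a ∧ a < y c + ρ c) (hae : y e < a' ∧ a' < y e + ρ e)
    (hD : ∀ s, min a a' ≤ s → s ≤ max a a' → (b, s) ∈ D) :
    Link H (meet ρ x y D) c e := by
  rcases le_total (y c) (y e) with hle | hle
  · exact t.vseg h0 h1 hb hc he hac hae hD hle
  · refine (t.vseg h0 h1 hb he hc hae hac (fun s hs1 hs2 => hD s ?_ ?_) hle).symm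
    · rwa [min_comm]
    · rwa [max_comm]

theorem hseg' (t : Tiling H W h ρ x y) {b : ℝ} (h0 : 0 < b) (h1 : b < h) (hb : Gen ρ y b)
    {D : Set (ℝ × ℝ)} {c e : C} (hc : c ∈ V ρ y b) (he : e ∈ V ρ y b) {a a' : ℝ}
    (hac : x c < a ∧ a < x c + ρ c) (hae : x e < a' ∧ a' < x e + ρ e)
    (hD : ∀ s, min a a' ≤ s → s ≤ max a a' → (s, b) ∈ D) :
    Link H (meet ρ x y D) c e := by
  have h2 := t.swap.vseg' h0 h1 hb (D := Prod.swap ⁻¹' D) hc he hac hae (fun s hs1 hs2 => hD s hs1 hs2)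
  refine rtg_mono (fun u v huv => ⟨huv.1, ?_, ?_⟩) h2
  · obtain ⟨z, hz, hzD⟩ := huv.2.1
    exact ⟨z.swap, ⟨hz.2, hz.1⟩, hzD⟩
  · obtain ⟨z, hz, hzD⟩ := huv.2.2
    exact ⟨z.swap, ⟨hz.2, hz.1⟩, hzD⟩

theorem exists_pos (t : Tiling H W h ρ x y) : ∃ c, 0 < ρ c := by
  by_contra hcon
  push Not at hcon
  have h1 : ∀ c, ρ c = 0 := fun c => le_antisymm (hcon c) (t.nonneg c)
  have h2 := t.area
  simp only [h1] at h2
  have h3 := mul_pos t.Wpos t.hpos
  simp at h2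
  rcases h2 with h2 | h2
  · rw [h2] at h3; simp at h3
  · rw [h2] at h3; simp at h3

/-- degenerate cells are linked to nondegenerate ones -/
theorem link_pos (t : Tiling H W h ρ x y) (D : Set (ℝ × ℝ)) (c : C) (hc : c ∈ meet ρ x y D) :
    ∃ d ∈ meet ρ x y D, 0 < ρ d ∧ Link H (meet ρ x y D) c d := by
  obtain ⟨n, hn⟩ := t.exists_pos
  have hpath := H.connected c n
  induction hpath using Relation.ReflTransGen.head_induction_on with
  | refl => exact ⟨n, hc, hn, Relation.ReflTransGen.refl⟩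
  | head hab hbn ih =>
    rename_i a b
    rcases (t.nonneg a).lt_or_eq with h1 | h1
    · exact ⟨a, hc, h1, Relation.ReflTransGen.refl⟩
    · have hb : b ∈ meet ρ x y D := by
        obtain ⟨z, hz, hzD⟩ := hc
        refine ⟨z, ?_, hzD⟩
        rw [mem_sq] at hz ⊢
        have h2 := t.adj_x a b hab
        have h3 := t.adj_x b a (H.symm a b hab)
        have h4 := t.adj_y a b hab
        have h5 := t.adj_y b a (H.symm a b hab)
        rw [← h1] at hz h2 h4
        obtain ⟨⟨h6, h7⟩, h8, h9⟩ := hz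
        exact ⟨⟨by linarith, by linarith⟩, by linarith, by linarith⟩
      obtain ⟨d, hd, hdpos, hlink⟩ := ih hb
      exact ⟨d, hd, hdpos, Relation.ReflTransGen.head ⟨hab, hc, hb⟩ hlink⟩

omit [Fintype C] in
theorem interval_meet {u r a b z : ℝ} (hr : 0 < r) (h1 : u ≤ z) (h2 : z ≤ u + r) (h3 : a < z) (h4 : z < b) :
    max u a < min (u + r) b :=
  max_lt (lt_min (by linarith) (by linarith)) (lt_min (by linarith) (by linarith))

/-- **The cells meeting an open rectangle form a connected set.** -/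
theorem disc_link (t : Tiling H W h ρ x y) {a₁ a₂ b₁ b₂ : ℝ} (c d : C)
    (hc : c ∈ meet ρ x y (Ioo a₁ a₂ ×ˢ Ioo b₁ b₂)) (hd : d ∈ meet ρ x y (Ioo a₁ a₂ ×ˢ Ioo b₁ b₂)) :
    Link H (meet ρ x y (Ioo a₁ a₂ ×ˢ Ioo b₁ b₂)) c d := by
  -- reduce to nondegenerate cells
  suffices hmain : ∀ c d : C, c ∈ meet ρ x y (Ioo a₁ a₂ ×ˢ Ioo b₁ b₂) → 0 < ρ c →
      d ∈ meet ρ x y (Ioo a₁ a₂ ×ˢ Ioo b₁ b₂) → 0 < ρ d →
      Link H (meet ρ x y (Ioo a₁ a₂ ×ˢ Ioo b₁ b₂)) c d by
    obtain ⟨c', hc', hcpos, hl⟩ := t.link_pos _ c hc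
    obtain ⟨d', hd', hdpos, hl'⟩ := t.link_pos _ d hd
    exact hl.trans ((hmain c' d' hc' hcpos hd' hdpos).trans hl'.symm)
  clear hc hd c d
  intro c d hc hρc hd hρd
  obtain ⟨z, hz, hzD⟩ := hc
  obtain ⟨w, hw, hwD⟩ := hd
  -- generic points
  obtain ⟨b, hb1, hb2, hbg⟩ := exists_gen ρ x (interval_meet hρc hz.1.1 hz.1.2 hzD.1.1 hzD.1.2)
  obtain ⟨a, ha1, ha2, hag⟩ := exists_gen ρ y (interval_meet hρc hz.2.1 hz.2.2 hzD.2.1 hzD.2.2)
  obtain ⟨b', hb1', hb2', hbg'⟩ := exists_gen ρ x (interval_meet hρd hw.1.1 hw.1.2 hwD.1.1 hwD.1.2)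
  obtain ⟨a', ha1', ha2', hag'⟩ := exists_gen ρ y (interval_meet hρd hw.2.1 hw.2.2 hwD.2.1 hwD.2.2)
  rw [max_lt_iff] at hb1 ha1 hb1' ha1'
  rw [lt_min_iff] at hb2 ha2 hb2' ha2'
  have hW := t.x_le c hρc
  have hh' := t.y_le d hρd
  have hx0 := t.x_nonneg c
  have hy0 := t.y_nonneg d
  obtain ⟨e, he⟩ := t.cover b a' (by linarith) (by linarith) (by linarith) (by linarith)
  rw [mem_sq] at he
  have hex : e ∈ V ρ x b :=
    ⟨lt_of_le_of_ne he.1.1 (Ne.symm (hbg e).1), lt_of_le_of_ne he.1.2 (hbg e).2⟩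
  have hey : e ∈ V ρ y a' :=
    ⟨lt_of_le_of_ne he.2.1 (Ne.symm (hag' e).1), lt_of_le_of_ne he.2.2 (hag' e).2⟩
  have l1 : Link H (meet ρ x y (Ioo a₁ a₂ ×ˢ Ioo b₁ b₂)) c e := by
    refine t.vseg' (by linarith) (by linarith) hbg ⟨hb1.1, hb2.1⟩ hex ⟨ha1.1, ha2.1⟩ hey ?_
    intro s hs1 hs2
    refine ⟨⟨hb1.2, hb2.2⟩, ?_, ?_⟩
    · exact lt_of_lt_of_le (lt_min ha1.2 ha1'.2) hs1
    · exact lt_of_le_of_lt hs2 (max_lt ha2.2 ha2'.2)
  have l2 : Link H (meet ρ x y (Ioo a₁ a₂ ×ˢ Ioo b₁ b₂)) e d := by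
    refine t.hseg' (by linarith) (by linarith) hag' hey ⟨ha1'.1, ha2'.1⟩ hex ⟨hb1'.1, hb2'.1⟩ ?_
    intro s hs1 hs2
    refine ⟨⟨?_, ?_⟩, ha1'.2, ha2'.2⟩
    · exact lt_of_lt_of_le (lt_min hb1.2 hb1'.2) hs1
    · exact lt_of_le_of_lt hs2 (max_lt hb2.2 hb2'.2)
  exact l1.trans l2

/-- **Local area bound.** -/
theorem local_area (t : Tiling H W h ρ x y) (G : Finset C) (D : Set (ℝ × ℝ)) (hD : MeasurableSet D)
    (hG : ∀ c ∈ G, sq ρ x y c ⊆ D) : ENNReal.ofReal (∑ c ∈ G, ρ c ^ 2) ≤ volume D := by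
  have h1 : ENNReal.ofReal (∑ c ∈ G, ρ c ^ 2) =
      ∫⁻ z : ℝ × ℝ, ∑ c ∈ G, (sq ρ x y c).indicator (fun _ => (1 : ℝ≥0∞)) z := by
    rw [lintegral_finsetSum]
    · rw [ENNReal.ofReal_sum_of_nonneg (fun _ _ => sq_nonneg _)]
      refine Finset.sum_congr rfl fun c _ => ?_
      have hms : MeasurableSet (sq ρ x y c) := measurableSet_Icc.prod measurableSet_Icc
      rw [lintegral_indicator hms]
      simp only [lintegral_const, one_mul, Measure.restrict_apply MeasurableSet.univ, univ_inter]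
      rw [sq, Measure.volume_eq_prod, Measure.prod_prod, Real.volume_Icc, Real.volume_Icc,
        ← ENNReal.ofReal_mul (by linarith [t.nonneg c])]
      congr 1; ring
    · intro c _
      exact measurable_const.indicator (measurableSet_Icc.prod measurableSet_Icc)
  have h2 : volume D = ∫⁻ z : ℝ × ℝ, D.indicator (fun _ => (1 : ℝ≥0∞)) z := by
    rw [lintegral_indicator hD]; simp
  rw [h1, h2]
  refine lintegral_mono_ae ?_
  filter_upwards [t.ae_eq] with z hz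
  by_cases hzD : z ∈ D
  · rw [indicator_of_mem hzD]
    refine (Finset.sum_le_sum_of_subset (Finset.subset_univ _)).trans ?_
    rw [← hz]
    exact indicator_le_self' (fun _ _ => zero_le) z |>.trans le_rfl
  · rw [indicator_of_notMem hzD]
    refine le_of_eq (Finset.sum_eq_zero fun c hc => ?_)
    rw [indicator_of_notMem fun hzc => hzD (hG c hc hzc)]

/-- local area bound for cells inside a closed (sup-norm) ball -/
theorem local_area_ball (t : Tiling H W h ρ x y) (G : Finset C) (p : ℝ × ℝ) (r : ℝ) (hr : 0 ≤ r)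
    (hG : ∀ c ∈ G, sq ρ x y c ⊆ Metric.closedBall p r) : ∑ c ∈ G, ρ c ^ 2 ≤ (2 * r) ^ 2 := by
  have h1 := t.local_area G (Metric.closedBall p r) Metric.isClosed_closedBall.measurableSet hG
  have h2 : volume (Metric.closedBall p r) = ENNReal.ofReal ((2 * r) ^ 2) := by
    rw [← closedBall_prod_same, Measure.volume_eq_prod, Measure.prod_prod, Real.volume_closedBall,
      Real.volume_closedBall, ← ENNReal.ofReal_mul (by positivity)]
    congr 1; ring
  rw [h2] at h1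
  exact (ENNReal.ofReal_le_ofReal_iff (by positivity)).1 h1

end Tiling

end P198S
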