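import Vale.Agent.P198.Q.Mod

/-!
# P198 block SQ (1): combinatorial rectangles, chain distances, extremal weight
-/

open scoped Classical

namespace P198S

theorem rtg_mono {α : Type*} {r p : α → α → Prop} (h : ∀ a b, r a b → p a b) {a b : α}
    (hr : Relation.ReflTransGen r a b) : Relation.ReflTransGen p a b := by
  induction hr with
  | refl => exact .refl
  | tail _ h1 ih => exact ih.tail (h _ _ h1)

/-- `X` is joined to `Y` inside `A` by an `adj`-chain. -/
def Conn {C : Type*} (adj : C → C → Prop) (A X Y : Set C) : Prop :=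
  ∃ a, a ∈ A ∧ a ∈ X ∧ ∃ b, b ∈ A ∧ b ∈ Y ∧ Relation.ReflTransGen (fun u v => adj u v ∧ u ∈ A ∧ v ∈ A) a b

/-- A combinatorial rectangle: cells, adjacency, bottom `L`, top `R`, left `S`, right `T`. -/
structure HexRect (C : Type*) where
  adj : C → C → Prop
  symm : ∀ a b, adj a b → adj b a
  connected : ∀ a b, Relation.ReflTransGen adj a b
  L : Set C
  R : Set C
  S : Set C
  T : Set C
  hex : ∀ A : Set C, Conn adj A L R ∨ Conn adj Aᶜ S T
  cross : ∀ A B : Set C, Conn adj A L R → Conn adj B S T → (A ∩ B).Nonempty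

namespace HexRect

variable {C : Type*}

/-- exchange the two directions. -/
def swap (H : HexRect C) : HexRect C where
  adj := H.adj
  symm := H.symm
  connected := H.connected
  L := H.S
  R := H.T
  S := H.L
  T := H.R
  hex := fun A => by
    rcases H.hex Aᶜ with h | h
    · exact Or.inr h
    · rw [compl_compl] at h; exact Or.inl h
  cross := fun A B hA hB => by
    rw [Set.inter_comm]; exact H.cross B A hB hA

theorem conn_univ (H : HexRect C) : Conn H.adj Set.univ H.L H.R := by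
  rcases H.hex Set.univ with h | h
  · exact h
  · obtain ⟨a, ha, -⟩ := h
    simp at ha

/-- `c` is reached from `X` inside `A`. -/
def Reach (H : HexRect C) (X : Set C) (A : Finset C) (c : C) : Prop :=
  ∃ a, a ∈ A ∧ a ∈ X ∧ Relation.ReflTransGen (fun u v => H.adj u v ∧ u ∈ A ∧ v ∈ A) a c

theorem Reach.mem {H : HexRect C} {X : Set C} {A : Finset C} {c : C} (h : H.Reach X A c) : c ∈ A := by
  obtain ⟨a, ha, -, hr⟩ := h
  rcases Relation.ReflTransGen.cases_tail hr with h1 | ⟨b, -, h2⟩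
  · rw [h1]; exact ha
  · exact h2.2.2

theorem Reach.mono {H : HexRect C} {X : Set C} {A B : Finset C} {c : C} (h : H.Reach X A c)
    (hAB : A ⊆ B) : H.Reach X B c := by
  obtain ⟨a, ha, haX, hr⟩ := h
  exact ⟨a, hAB ha, haX,
    rtg_mono (fun u v huv => ⟨huv.1, hAB huv.2.1, hAB huv.2.2⟩) hr⟩

theorem Reach.step {H : HexRect C} {X : Set C} {A : Finset C} {c d : C} (h : H.Reach X A c)
    (hcd : H.adj c d) : H.Reach X (insert d A) d := by
  have h' := h.mono (Finset.subset_insert d A)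
  obtain ⟨a, ha, haX, hr⟩ := h'
  exact ⟨a, ha, haX, hr.tail ⟨hcd, Finset.mem_insert_of_mem h.mem, Finset.mem_insert_self _ _⟩⟩

theorem reach_self (H : HexRect C) {X : Set C} {c : C} (h : c ∈ X) : H.Reach X {c} c :=
  ⟨c, Finset.mem_singleton_self c, h, Relation.ReflTransGen.refl⟩

/-- distance from `X` to `c`, not counting `c`. -/
noncomputable def D (H : HexRect C) (ρ : C → ℝ) (X : Set C) (c : C) : ℝ :=
  sInf {e | ∃ A : Finset C, H.Reach X A c ∧ e = ∑ a ∈ A.erase c, ρ a}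

variable (H : HexRect C) (ρ : C → ℝ) (hρ : ∀ c, 0 ≤ ρ c)
include hρ

theorem D_bdd (X : Set C) (c : C) :
    BddBelow {e | ∃ A : Finset C, H.Reach X A c ∧ e = ∑ a ∈ A.erase c, ρ a} := by
  refine ⟨0, ?_⟩
  rintro e ⟨A, -, rfl⟩
  exact Finset.sum_nonneg fun _ _ => hρ _

theorem D_nonneg (X : Set C) (c : C) : 0 ≤ H.D ρ X c := by
  apply Real.sInf_nonneg
  rintro e ⟨A, -, rfl⟩
  exact Finset.sum_nonneg fun _ _ => hρ _

theorem D_le (X : Set C) (c : C) (A : Finset C) (h : H.Reach X A c) :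
    H.D ρ X c ≤ ∑ a ∈ A.erase c, ρ a :=
  csInf_le (H.D_bdd ρ hρ X c) ⟨A, h, rfl⟩

theorem D_eq_zero (X : Set C) (c : C) (h : c ∈ X) : H.D ρ X c = 0 := by
  apply le_antisymm _ (H.D_nonneg ρ hρ X c)
  have := H.D_le ρ hρ X c {c} (H.reach_self h)
  simpa using this

omit hρ in
theorem exists_reach [Fintype C] (X : Set C) (hX : X.Nonempty) (c : C) : ∃ A : Finset C, H.Reach X A c := by
  obtain ⟨x, hx⟩ := hX
  refine ⟨Finset.univ, x, Finset.mem_univ _, hx, ?_⟩
  exact rtg_mono (fun u v h => ⟨h, Finset.mem_univ _, Finset.mem_univ _⟩) (H.connected x c)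

theorem D_adj [Fintype C] (X : Set C) (hX : X.Nonempty) (c d : C) (h : H.adj c d) :
    H.D ρ X d ≤ H.D ρ X c + ρ c := by
  rw [← sub_le_iff_le_add]
  apply le_csInf
  · obtain ⟨A, hA⟩ := H.exists_reach X hX c
    exact ⟨_, A, hA, rfl⟩
  · rintro e ⟨A, hA, rfl⟩
    rw [sub_le_iff_le_add, Finset.sum_erase_add _ _ hA.mem]
    refine (H.D_le ρ hρ X d _ (hA.step h)).trans ?_
    by_cases hd : d ∈ A
    · rw [Finset.insert_eq_of_mem hd]
      exact Finset.sum_le_sum_of_subset_of_nonneg (Finset.erase_subset _ _) fun _ _ _ => hρ _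
    · rw [Finset.erase_insert hd]

omit hρ in
theorem D_end [Fintype C] (X Y : Set C) (hX : X.Nonempty) (c : C) (hc : c ∈ Y) (ℓ : ℝ)
    (hℓ : ∀ A : Finset C, Conn H.adj (A : Set C) X Y → ℓ ≤ ∑ a ∈ A, ρ a) :
    ℓ ≤ H.D ρ X c + ρ c := by
  rw [← sub_le_iff_le_add]
  apply le_csInf
  · obtain ⟨A, hA⟩ := H.exists_reach X hX c
    exact ⟨_, A, hA, rfl⟩
  · rintro e ⟨A, hA, rfl⟩
    rw [sub_le_iff_le_add, Finset.sum_erase_add _ _ hA.mem]
    apply hℓ
    obtain ⟨a, ha, haX, hr⟩ := id hA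
    exact ⟨a, ha, haX, c, hA.mem, hc, hr⟩

end HexRect

/-- The data of a square tiling of `[0,W] × [0,h]` by squares indexed by cells. -/
structure Tiling {C : Type*} [Fintype C] (H : HexRect C) (W h : ℝ) (ρ x y : C → ℝ) : Prop where
  Wpos : 0 < W
  hpos : 0 < h
  nonneg : ∀ c, 0 ≤ ρ c
  x_nonneg : ∀ c, 0 ≤ x c
  y_nonneg : ∀ c, 0 ≤ y c
  adj_x : ∀ c d, H.adj c d → x d ≤ x c + ρ c
  adj_y : ∀ c d, H.adj c d → y d ≤ y c + ρ c
  bottom : ∀ c ∈ H.L, y c = 0
  top : ∀ c ∈ H.R, h ≤ y c + ρ c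
  left : ∀ c ∈ H.S, x c = 0
  right : ∀ c ∈ H.T, W ≤ x c + ρ c
  area : ∑ c, ρ c ^ 2 = W * h

theorem Tiling.swap {C : Type*} [Fintype C] {H : HexRect C} {W h : ℝ} {ρ x y : C → ℝ}
    (t : Tiling H W h ρ x y) : Tiling H.swap h W ρ y x where
  Wpos := t.hpos
  hpos := t.Wpos
  nonneg := t.nonneg
  x_nonneg := t.y_nonneg
  y_nonneg := t.x_nonneg
  adj_x := t.adj_y
  adj_y := t.adj_x
  bottom := t.left
  top := t.right
  left := t.bottom
  right := t.top
  area := by rw [mul_comm]; exact t.area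

/-- The extremal weight of the lr-chains gives a square tiling. Here `1 / W` is the modulus `md` of
the family of lr-connected sets... more precisely `∑ ρ^2 = W` and `W` is the modulus. -/
theorem exists_tiling {C : Type*} [Fintype C] (H : HexRect C) :
    ∃ (W : ℝ) (ρ x y : C → ℝ), Tiling H W 1 ρ x y ∧
      W = P198Q.md (Finset.univ : Finset C) (fun c (A : Finset C) => c ∈ A)
        {A | Conn H.adj (A : Set C) H.L H.R} ∧
      (∀ A : Finset C, Conn H.adj (A : Set C) H.L H.R → 1 ≤ ∑ c ∈ A, ρ c) ∧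
      (∀ A : Finset C, Conn H.adj (A : Set C) H.S H.T → W ≤ ∑ c ∈ A, ρ c) := by
  have hne : ({A : Finset C | Conn H.adj (A : Set C) H.L H.R}).Nonempty := by
    refine ⟨Finset.univ, ?_⟩
    show Conn H.adj ((Finset.univ : Finset C) : Set C) H.L H.R
    rw [Finset.coe_univ]; exact H.conn_univ
  have hF : ∀ K ∈ {A : Finset C | Conn H.adj (A : Set C) H.L H.R}, ∃ v ∈ (Finset.univ : Finset C), v ∈ K := by
    rintro K ⟨a, ha, -⟩
    exact ⟨a, Finset.mem_univ _, ha⟩
  obtain ⟨μ, hμ, hE, hmd, hadm⟩ := P198Q.exists_flow' (Finset.univ : Finset C)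
    (fun c (A : Finset C) => c ∈ A) {A | Conn H.adj (A : Set C) H.L H.R} hne hF
  set m : C → ℝ := μ.mass (fun c (A : Finset C) => c ∈ A) with hm
  set E := P198Q.energy (Finset.univ : Finset C) m with hEdef
  have hlen : ∀ (f : C → ℝ) (A : Finset C), P198Q.len (Finset.univ : Finset C)
      (fun c (A : Finset C) => c ∈ A) f A = ∑ c ∈ A, f c := by
    intro f A
    unfold P198Q.len
    congr 1
    ext c; simp
  let ρ : C → ℝ := fun c => m c / E
  have hρ : ∀ c, 0 ≤ ρ c := hadm.1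
  have hlr : ∀ A : Finset C, Conn H.adj (A : Set C) H.L H.R → 1 ≤ ∑ c ∈ A, ρ c := by
    intro A hA
    have := hadm.2 A hA
    rwa [hlen] at this
  have hst : ∀ A : Finset C, Conn H.adj (A : Set C) H.S H.T → 1 / E ≤ ∑ c ∈ A, ρ c := by
    intro B hB
    have h1 : 1 ≤ ∑ c ∈ B, m c := by
      have h2 : ∑ c ∈ B, m c = ∑ A ∈ μ.supp, μ.w A * ((A ∩ B).card : ℝ) := by
        simp only [hm, P198Q.Flow.mass]
        simp_rw [Finset.sum_filter]
        rw [Finset.sum_comm]
        refine Finset.sum_congr rfl fun A _ => ?_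
        rw [Finset.inter_comm, ← Finset.filter_mem_eq_inter, Finset.card_filter]
        push_cast
        rw [Finset.mul_sum]
        refine Finset.sum_congr rfl fun x _ => ?_
        by_cases h : x ∈ A <;> simp [h]
      rw [h2, ← μ.sum_one]
      refine Finset.sum_le_sum fun A hA => ?_
      have h3 : (1 : ℝ) ≤ ((A ∩ B).card : ℝ) := by
        obtain ⟨c, hc⟩ := H.cross A B (hμ A hA) hB
        have : 0 < (A ∩ B).card := Finset.card_pos.2 ⟨c, Finset.mem_inter.2 ⟨hc.1, hc.2⟩⟩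
        exact_mod_cast this
      have := μ.pos A hA
      nlinarith
    show 1 / E ≤ ∑ c ∈ B, m c / E
    rw [← Finset.sum_div]
    exact div_le_div_of_nonneg_right h1 hE.le
  have hLne : H.L.Nonempty := by
    obtain ⟨a, -, ha, -⟩ := H.conn_univ
    exact ⟨a, ha⟩
  have hSne : H.S.Nonempty := by
    obtain ⟨a, -, ha, -⟩ := H.swap.conn_univ
    exact ⟨a, ha⟩
  refine ⟨1 / E, ρ, H.D ρ H.S, H.D ρ H.L, ?_, ?_, hlr, hst⟩
  · exact
      { Wpos := one_div_pos.2 hE
        hpos := one_pos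
        nonneg := hρ
        x_nonneg := H.D_nonneg ρ hρ H.S
        y_nonneg := H.D_nonneg ρ hρ H.L
        adj_x := fun c d h => H.D_adj ρ hρ H.S hSne c d h
        adj_y := fun c d h => H.D_adj ρ hρ H.L hLne c d h
        bottom := fun c hc => H.D_eq_zero ρ hρ H.L c hc
        top := fun c hc => H.D_end ρ H.L H.R hLne c hc 1 hlr
        left := fun c hc => H.D_eq_zero ρ hρ H.S c hc
        right := fun c hc => H.D_end ρ H.S H.T hSne c hc (1 / E) hst
        area := by
          rw [mul_one]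
          have : ∑ c, ρ c ^ 2 = P198Q.energy (Finset.univ : Finset C) (fun c => m c / E) := rfl
          rw [this, P198Q.energy_div, ← hEdef]
          field_simp }
  · rw [div_eq_iff hE.ne', mul_comm]
    exact hmd.symm

end P198S
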