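import Vale.Agent.P198.SQ.Hex

/-!
# P198 block SQ (2): the squares tile, generic lines are chains
-/

open scoped Classical ENNReal
open MeasureTheory Set

namespace P198S

theorem Conn.induct {C : Type*} {adj : C → C → Prop} {A X Y : Set C} (h : Conn adj A X Y)
    (P : C → Prop) (h0 : ∀ a ∈ A, a ∈ X → P a)
    (hs : ∀ a b, adj a b → a ∈ A → b ∈ A → P a → P b) : ∃ b ∈ A, b ∈ Y ∧ P b := by
  obtain ⟨a, haA, haX, b, hbA, hbY, hr⟩ := h
  refine ⟨b, hbA, hbY, ?_⟩
  have h1 := h0 a haA haX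
  clear hbA hbY
  induction hr with
  | refl => exact h1
  | tail _ hst ih => exact hs _ _ hst.1 hst.2.1 hst.2.2 ih

/-- first exit along a chain -/
theorem Conn.exit {C : Type*} {adj : C → C → Prop} {A X Y : Set C} (h : Conn adj A X Y)
    (P : C → Prop) (h0 : ∀ a ∈ A, a ∈ X → P a) (h1 : ∀ b ∈ A, b ∈ Y → ¬ P b) :
    ∃ a ∈ A, ∃ b ∈ A, adj a b ∧ P a ∧ ¬ P b := by
  by_contra hcon
  push Not at hcon
  obtain ⟨b, hbA, hbY, hP⟩ := h.induct P h0 fun a b hab haA hbA hPa => hcon a haA b hbA hab hPa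
  exact h1 b hbA hbY hP

variable {C : Type*} [Fintype C] {H : HexRect C} {W h : ℝ} {ρ x y : C → ℝ}

/-- the closed square of a cell -/
def sq (ρ x y : C → ℝ) (c : C) : Set (ℝ × ℝ) := Icc (x c) (x c + ρ c) ×ˢ Icc (y c) (y c + ρ c)

/-- the open square of a cell -/
def osq (ρ x y : C → ℝ) (c : C) : Set (ℝ × ℝ) := Ioo (x c) (x c + ρ c) ×ˢ Ioo (y c) (y c + ρ c)

omit [Fintype C] in
theorem mem_sq {c : C} {z : ℝ × ℝ} : z ∈ sq ρ x y c ↔
    (x c ≤ z.1 ∧ z.1 ≤ x c + ρ c) ∧ (y c ≤ z.2 ∧ z.2 ≤ y c + ρ c) := Iff.rfl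

omit [Fintype C] in
theorem mem_osq {c : C} {z : ℝ × ℝ} : z ∈ osq ρ x y c ↔
    (x c < z.1 ∧ z.1 < x c + ρ c) ∧ (y c < z.2 ∧ z.2 < y c + ρ c) := Iff.rfl

omit [Fintype C] in
theorem osq_subset_sq (c : C) : osq ρ x y c ⊆ sq ρ x y c :=
  prod_mono Ioo_subset_Icc_self Ioo_subset_Icc_self

namespace Tiling

section
variable (t : Tiling H W h ρ x y)
include t

/-- the cells meeting a horizontal line join left to right -/
theorem horiz (b : ℝ) (hb : 0 ≤ b) (hbh : b ≤ h) :
    Conn H.adj {c | y c ≤ b ∧ b ≤ y c + ρ c} H.S H.T := by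
  rcases H.hex {c | y c ≤ b ∧ b ≤ y c + ρ c}ᶜ with hc | hc
  · exfalso
    obtain ⟨c, hcA, hcR, hP⟩ := hc.induct (fun c => y c + ρ c < b)
      (fun a haA haL => by
        simp only [mem_compl_iff, mem_ofPred_eq, not_and, not_le] at haA
        exact haA (by rw [t.bottom a haL]; exact hb))
      (fun a c hac haA hcA hP => by
        simp only [mem_compl_iff, mem_ofPred_eq, not_and, not_le] at hcA
        exact hcA ((t.adj_y a c hac).trans hP.le))
    have := t.top c hcR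
    linarith
  · rwa [compl_compl] at hc

theorem cover (a b : ℝ) (ha : 0 ≤ a) (haW : a ≤ W) (hb : 0 ≤ b) (hbh : b ≤ h) :
    ∃ c, (a, b) ∈ sq ρ x y c := by
  by_contra hcon
  push Not at hcon
  obtain ⟨c, hcA, hcT, hP⟩ := (t.horiz b hb hbh).induct (fun c => x c + ρ c < a)
    (fun c hcA hcS => by
      have h1 := hcon c
      rw [mem_sq] at h1
      simp only [mem_ofPred_eq] at hcA
      by_contra h2
      push Not at h2
      exact h1 ⟨⟨by rw [t.left c hcS]; exact ha, h2⟩, hcA⟩)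
    (fun c d hcd hcA hdA hP => by
      have h1 := hcon d
      rw [mem_sq] at h1
      simp only [mem_ofPred_eq] at hdA
      by_contra h2
      push Not at h2
      exact h1 ⟨⟨(t.adj_x c d hcd).trans hP.le, h2⟩, hdA⟩)
  have := t.right c hcT
  linarith

theorem lintegral_sum_sq :
    ∫⁻ z : ℝ × ℝ, ∑ c, (sq ρ x y c).indicator (fun _ => (1 : ℝ≥0∞)) z = ENNReal.ofReal (W * h) := by
  rw [lintegral_finsetSum]
  · rw [← t.area, ENNReal.ofReal_sum_of_nonneg (fun _ _ => sq_nonneg _)]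
    refine Finset.sum_congr rfl fun c _ => ?_
    have hms : MeasurableSet (sq ρ x y c) := measurableSet_Icc.prod measurableSet_Icc
    rw [lintegral_indicator hms]
    simp only [lintegral_const, one_mul, Measure.restrict_apply MeasurableSet.univ, univ_inter]
    rw [sq, Measure.volume_eq_prod, Measure.prod_prod, Real.volume_Icc, Real.volume_Icc,
      ← ENNReal.ofReal_mul (by linarith [t.nonneg c])]
    congr 1; ring
  · intro c _
    exact measurable_const.indicator (measurableSet_Icc.prod measurableSet_Icc)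

theorem ae_eq :
    (fun z : ℝ × ℝ => (Icc (0 : ℝ) W ×ˢ Icc (0 : ℝ) h).indicator (fun _ => (1 : ℝ≥0∞)) z) =ᵐ[volume]
      fun z => ∑ c, (sq ρ x y c).indicator (fun _ => (1 : ℝ≥0∞)) z := by
  have hg : ∫⁻ z : ℝ × ℝ, (Icc (0 : ℝ) W ×ˢ Icc (0 : ℝ) h).indicator (fun _ => (1 : ℝ≥0∞)) z
      = ENNReal.ofReal (W * h) := by
    rw [lintegral_indicator (measurableSet_Icc.prod measurableSet_Icc)]
    simp only [lintegral_const, one_mul, Measure.restrict_apply MeasurableSet.univ, univ_inter]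
    rw [Measure.volume_eq_prod, Measure.prod_prod, Real.volume_Icc, Real.volume_Icc,
      ← ENNReal.ofReal_mul (by linarith [t.Wpos])]
    simp
  apply ae_eq_of_ae_le_of_lintegral_le
  · refine Filter.Eventually.of_forall fun z => ?_
    show (Icc (0 : ℝ) W ×ˢ Icc (0 : ℝ) h).indicator (fun _ => (1 : ℝ≥0∞)) z ≤
      ∑ c, (sq ρ x y c).indicator (fun _ => (1 : ℝ≥0∞)) z
    by_cases hz : z ∈ Icc (0 : ℝ) W ×ˢ Icc (0 : ℝ) h
    · obtain ⟨c, hc⟩ := t.cover z.1 z.2 hz.1.1 hz.1.2 hz.2.1 hz.2.2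
      rw [indicator_of_mem hz]
      calc (1 : ℝ≥0∞) = (sq ρ x y c).indicator (fun _ => (1 : ℝ≥0∞)) z := by
            rw [indicator_of_mem hc]
        _ ≤ _ := Finset.single_le_sum (f := fun c => (sq ρ x y c).indicator (fun _ => (1 : ℝ≥0∞)) z)
            (fun _ _ => zero_le) (Finset.mem_univ c)
    · rw [indicator_of_notMem hz]; exact zero_le
  · rw [hg]; exact ENNReal.ofReal_ne_top
  · refine Measurable.aemeasurable ?_
    exact Finset.measurable_fun_sum _ fun c _ =>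
      measurable_const.indicator (measurableSet_Icc.prod measurableSet_Icc)
  · rw [hg, t.lintegral_sum_sq]

/-- no nonempty open set on which the two functions differ -/
theorem no_open (U : Set (ℝ × ℝ)) (hU : IsOpen U) (hne : U.Nonempty) :
    ∃ z ∈ U, (Icc (0 : ℝ) W ×ˢ Icc (0 : ℝ) h).indicator (fun _ => (1 : ℝ≥0∞)) z =
      ∑ c, (sq ρ x y c).indicator (fun _ => (1 : ℝ≥0∞)) z := by
  by_contra hcon
  push Not at hcon
  have h1 := t.ae_eq
  have h2 : volume U = 0 := by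
    refine measure_mono_null ?_ (ae_iff.1 h1)
    intro z hz
    exact hcon z hz
  exact (hU.measure_pos volume hne).ne' h2

theorem osq_disjoint (c d : C) (hcd : c ≠ d) : Disjoint (osq ρ x y c) (osq ρ x y d) := by
  rw [Set.disjoint_iff_inter_eq_empty]
  by_contra hne
  rw [← Ne, ← nonempty_iff_ne_empty] at hne
  have hopen : IsOpen (osq ρ x y c ∩ osq ρ x y d) :=
    (isOpen_Ioo.prod isOpen_Ioo).inter (isOpen_Ioo.prod isOpen_Ioo)
  obtain ⟨z, hz, heq⟩ := t.no_open _ hopen hne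
  have h1 : (2 : ℝ≥0∞) ≤ ∑ c, (sq ρ x y c).indicator (fun _ => (1 : ℝ≥0∞)) z := by
    calc (2 : ℝ≥0∞) = ∑ e ∈ ({c, d} : Finset C), (sq ρ x y e).indicator (fun _ => (1 : ℝ≥0∞)) z := by
          rw [Finset.sum_pair hcd, indicator_of_mem (osq_subset_sq c hz.1),
            indicator_of_mem (osq_subset_sq d hz.2)]
          norm_num
      _ ≤ _ := Finset.sum_le_sum_of_subset (Finset.subset_univ _)
  rw [← heq] at h1
  have h2 : (Icc (0 : ℝ) W ×ˢ Icc (0 : ℝ) h).indicator (fun _ => (1 : ℝ≥0∞)) z ≤ 1 :=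
    indicator_le_self' (fun _ _ => zero_le) z |>.trans le_rfl
  have h3 : (2 : ℝ≥0∞) ≤ 1 := h1.trans h2
  norm_num at h3

theorem x_le (c : C) (hc : 0 < ρ c) : x c + ρ c ≤ W := by
  by_contra hlt
  push Not at hlt
  have hopen : IsOpen (Ioo (max (x c) W) (x c + ρ c) ×ˢ Ioo (y c) (y c + ρ c)) :=
    isOpen_Ioo.prod isOpen_Ioo
  have hne : (Ioo (max (x c) W) (x c + ρ c) ×ˢ Ioo (y c) (y c + ρ c)).Nonempty := by
    apply Set.Nonempty.prod
    · exact nonempty_Ioo.2 (max_lt (by linarith) hlt)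
    · exact nonempty_Ioo.2 (by linarith)
  obtain ⟨z, hz, heq⟩ := t.no_open _ hopen hne
  have h1 : (1 : ℝ≥0∞) ≤ ∑ c, (sq ρ x y c).indicator (fun _ => (1 : ℝ≥0∞)) z := by
    have hzc : z ∈ sq ρ x y c :=
      ⟨⟨(le_max_left _ _).trans hz.1.1.le, hz.1.2.le⟩, ⟨hz.2.1.le, hz.2.2.le⟩⟩
    calc (1 : ℝ≥0∞) = (sq ρ x y c).indicator (fun _ => (1 : ℝ≥0∞)) z := by
            rw [indicator_of_mem hzc]
      _ ≤ _ := Finset.single_le_sum (f := fun c => (sq ρ x y c).indicator (fun _ => (1 : ℝ≥0∞)) z)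
            (fun _ _ => zero_le) (Finset.mem_univ c)
  rw [← heq, indicator_of_notMem] at h1
  · norm_num at h1
  · intro hmem
    have h2 := hmem.1.2
    have h3 := hz.1.1
    have h4 := le_max_right (x c) W
    linarith

end

theorem y_le (t : Tiling H W h ρ x y) (c : C) (hc : 0 < ρ c) : y c + ρ c ≤ h := t.swap.x_le c hc

theorem vert (t : Tiling H W h ρ x y) (a : ℝ) (ha : 0 ≤ a) (haW : a ≤ W) :
    Conn H.adj {c | x c ≤ a ∧ a ≤ x c + ρ c} H.L H.R := t.swap.horiz a ha haW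

/-- `b` avoids the vertical sides -/
def Gen (ρ x : C → ℝ) (b : ℝ) : Prop := ∀ c, b ≠ x c ∧ b ≠ x c + ρ c

/-- cells on a vertical line -/
def V (ρ x : C → ℝ) (b : ℝ) : Set C := {c | x c < b ∧ b < x c + ρ c}

omit [Fintype C] in
theorem V_pos {b : ℝ} {c : C} (hc : c ∈ V ρ x b) : 0 < ρ c := by
  have h1 := hc.1
  have h2 := hc.2
  linarith

omit [Fintype C] in
theorem gen_iff {b : ℝ} (hb : Gen ρ x b) : {c | x c ≤ b ∧ b ≤ x c + ρ c} = V ρ x b := by
  ext c
  simp only [mem_ofPred_eq, V]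
  constructor
  · rintro ⟨h1, h2⟩
    exact ⟨lt_of_le_of_ne h1 (Ne.symm (hb c).1), lt_of_le_of_ne h2 (hb c).2⟩
  · rintro ⟨h1, h2⟩
    exact ⟨h1.le, h2.le⟩

theorem V_conn (t : Tiling H W h ρ x y) {b : ℝ} (h0 : 0 < b) (h1 : b < W) (hb : Gen ρ x b) :
    Conn H.adj (V ρ x b) H.L H.R := by
  rw [← gen_iff hb]; exact t.vert b h0.le h1.le

theorem V_disj (t : Tiling H W h ρ x y) {b : ℝ} {c d : C} (hc : c ∈ V ρ x b) (hd : d ∈ V ρ x b)
    (hcd : c ≠ d) : y c + ρ c ≤ y d ∨ y d + ρ d ≤ y c := by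
  by_contra hcon
  push Not at hcon
  have h1 := t.osq_disjoint c d hcd
  have hρc := V_pos hc
  have hρd := V_pos hd
  rw [Set.disjoint_left] at h1
  have hlt : max (y c) (y d) < min (y c + ρ c) (y d + ρ d) :=
    max_lt (lt_min (by linarith) hcon.2) (lt_min hcon.1 (by linarith))
  obtain ⟨e, he1, he2⟩ := exists_between hlt
  rw [max_lt_iff] at he1
  rw [lt_min_iff] at he2
  exact @h1 (b, e) ⟨⟨hc.1, hc.2⟩, ⟨he1.1, he2.1⟩⟩ ⟨⟨hd.1, hd.2⟩, ⟨he1.2, he2.2⟩⟩

theorem V_inj (t : Tiling H W h ρ x y) {b : ℝ} {c d : C} (hc : c ∈ V ρ x b) (hd : d ∈ V ρ x b)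
    (hy : y c = y d) : c = d := by
  by_contra hcd
  have hρc := V_pos hc
  have hρd := V_pos hd
  rcases t.V_disj hc hd hcd with h1 | h1 <;> linarith

theorem V_lt (t : Tiling H W h ρ x y) {b : ℝ} {c d : C} (hc : c ∈ V ρ x b) (hd : d ∈ V ρ x b)
    (hy : y c < y d) : y c + ρ c ≤ y d := by
  have hρc := V_pos hc
  have hρd := V_pos hd
  rcases t.V_disj hc hd (fun h => by rw [h] at hy; exact lt_irrefl _ hy) with h1 | h1
  · exact h1
  · linarith

/-- the next cell on a vertical line is adjacent -/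
theorem V_succ (t : Tiling H W h ρ x y) {b : ℝ} (h0 : 0 < b) (h1 : b < W) (hb : Gen ρ x b)
    {c : C} (hc : c ∈ V ρ x b) (hlt : y c + ρ c < h) :
    ∃ d ∈ V ρ x b, H.adj c d ∧ y d = y c + ρ c := by
  obtain ⟨e, he, d, hd, hed, hPe, hPd⟩ := (t.V_conn h0 h1 hb).exit (fun e => y e ≤ y c)
    (fun a _ haL => by rw [t.bottom a haL]; exact t.y_nonneg c)
    (fun r hr hrR hle => by
      have h2 := t.top r hrR
      rcases hle.lt_or_eq with h3 | h3
      · have := t.V_lt hr hc h3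
        have := V_pos hc
        linarith
      · have := t.V_inj hr hc h3
        subst this
        linarith)
  push Not at hPd
  have hec : e = c := by
    rcases hPe.lt_or_eq with h3 | h3
    · exfalso
      have h4 := t.V_lt he hc h3
      have h5 := t.adj_y e d hed
      linarith
    · exact t.V_inj he hc h3
  subst hec
  exact ⟨d, hd, hed, le_antisymm (t.adj_y e d hed) (t.V_lt hc hd hPd)⟩

/-- vertical lines are chains -/
theorem vline (t : Tiling H W h ρ x y) {b : ℝ} (h0 : 0 < b) (h1 : b < W) (hb : Gen ρ x b)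
    {c d : C} (hc : c ∈ V ρ x b) (hd : d ∈ V ρ x b) (hy : y c ≤ y d) :
    Relation.ReflTransGen (fun u v => H.adj u v ∧ (u ∈ V ρ x b ∧ y c ≤ y u ∧ y u ≤ y d) ∧
      (v ∈ V ρ x b ∧ y c ≤ y v ∧ y v ≤ y d)) c d := by
  have key : ∀ (n : ℕ) (c : C), c ∈ V ρ x b → y c ≤ y d →
      (Finset.univ.filter (fun e => y c < y e ∧ y e ≤ y d)).card ≤ n →
      Relation.ReflTransGen (fun u v => H.adj u v ∧ (u ∈ V ρ x b ∧ y c ≤ y u ∧ y u ≤ y d) ∧
      (v ∈ V ρ x b ∧ y c ≤ y v ∧ y v ≤ y d)) c d := by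
    intro n
    induction n with
    | zero =>
      intro c hc hy hn
      rcases hy.lt_or_eq with h2 | h2
      · exfalso
        have h3 : d ∈ Finset.univ.filter (fun e => y c < y e ∧ y e ≤ y d) := by simp [h2]
        have h4 := Finset.card_pos.2 ⟨d, h3⟩
        omega
      · rw [t.V_inj hc hd h2]
    | succ n ih =>
      intro c hc hy hn
      rcases hy.lt_or_eq with h2 | h2
      · have h3 := t.V_lt hc hd h2
        have h4 := t.y_le d (V_pos hd)
        have h5 := V_pos hd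
        have h6 := V_pos hc
        obtain ⟨e, he, hce, hye⟩ := t.V_succ h0 h1 hb hc (by linarith)
        have h7 : (Finset.univ.filter (fun f => y e < y f ∧ y f ≤ y d)).card ≤ n := by
          have h8 : Finset.univ.filter (fun f => y e < y f ∧ y f ≤ y d) ⊂
              Finset.univ.filter (fun f => y c < y f ∧ y f ≤ y d) := by
            rw [Finset.ssubset_iff_of_subset]
            · refine ⟨e, ?_, ?_⟩
              · simp only [Finset.mem_filter, Finset.mem_univ, true_and]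
                exact ⟨by linarith, by linarith⟩
              · simp
            · intro f hf
              simp only [Finset.mem_filter, Finset.mem_univ, true_and] at hf ⊢
              exact ⟨by linarith, hf.2⟩
          have := Finset.card_lt_card h8
          omega
        have h9 := ih e he (by linarith) h7
        refine Relation.ReflTransGen.head ⟨hce, ⟨hc, le_rfl, hy⟩, ⟨he, by linarith, by linarith⟩⟩ ?_
        exact rtg_mono (fun u v huv => ⟨huv.1, ⟨huv.2.1.1, by linarith [huv.2.1.2.1], huv.2.1.2.2⟩,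
          ⟨huv.2.2.1, by linarith [huv.2.2.2.1], huv.2.2.2.2⟩⟩) h9
      · rw [t.V_inj hc hd h2]
  exact key _ c hc hy le_rfl

end Tiling

end P198S
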